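import Mathlib

/-!
# P249, lower bound for every p > 2: shared definitions for the grid argument

Points of the integer lattice are functions `Fin k → ℤ`; `sqDist` is the squared Euclidean
distance, `LipZ G L` says that `G` is `L`-Lipschitz for the Euclidean distance, `boxAvg k w G`
is the average of `G` over the translates by the box `{0,…,w-1}^k`, and `box k m` is the
box `{0,…,m-1}^k`.
-/

namespace Vale.Agent.Lib.P249.H68

open Finset

/-- Squared Euclidean distance between two integer points. -/
noncomputable def sqDist {k : ℕ} (z z' : Fin k → ℤ) : ℝ :=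
  ∑ i, ((z i : ℝ) - (z' i : ℝ)) ^ 2

/-- `G` is `L`-Lipschitz on the integer lattice for the Euclidean distance. -/
def LipZ {k : ℕ} (G : (Fin k → ℤ) → ℝ) (L : ℝ) : Prop :=
  ∀ z z' : Fin k → ℤ, |G z - G z'| ≤ L * Real.sqrt (sqDist z z')

/-- The average of `G` over the translates of `z` by the box `{0,…,w-1}^k`. -/
noncomputable def boxAvg (k w : ℕ) (G : (Fin k → ℤ) → ℝ) (z : Fin k → ℤ) : ℝ :=
  (∑ u : Fin k → Fin w, G (fun i => z i + ((u i : ℕ) : ℤ))) / (w : ℝ) ^ k

/-- The box `{0,…,m-1}^k` of the integer lattice. -/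
noncomputable def box (k m : ℕ) : Finset (Fin k → ℤ) :=
  Fintype.piFinset fun _ => Finset.Ico (0 : ℤ) (m : ℤ)

end Vale.Agent.Lib.P249.H68
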