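import Mathlib
import Vale.Agent.Lib.P249.helper21.LpApprox

/-!
# P249: simple functions of `L_p(μ)` with a dominating function become points of `ℝ^m`

`simple_dom`: finitely many simple functions of `L_p(μ)` that are dominated almost everywhere by a
function `h` with `‖h‖_p ≤ K` are turned into points of `ℝ^m` with the same pairwise `p`-distances
and with a coordinatewise bound `M` whose `p`-th powers sum to at most `K ^ p`.
(Second copy of pool job 278, helper68.)
-/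

open MeasureTheory

namespace Vale.Agent.Lib.P249.H68

open Vale.Agent.Lib.P249.H21Lp

variable {α : Type*} [MeasurableSpace α]

/-- The weight of an atom: its measure if the functions are not all equal on it, else zero. -/
noncomputable def sdW (μ : Measure α) {n : ℕ} (J : SimpleFunc α (Fin n → ℝ)) (c : Fin n → ℝ) : ℝ :=
  open Classical in if (∃ i j, c i ≠ c j) then (μ (J ⁻¹' {c})).toReal else 0

theorem sdW_nonneg (μ : Measure α) {n : ℕ} (J : SimpleFunc α (Fin n → ℝ)) (c : Fin n → ℝ) :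
    0 ≤ sdW μ J c := by
  unfold sdW
  split_ifs
  · exact ENNReal.toReal_nonneg
  · exact le_rfl

/-- The distance of two simple functions in terms of the atoms of the joint simple function. -/
theorem sd_key (μ : Measure α) (p : ENNReal) [Fact (1 ≤ p)] (hp : p ≠ ⊤) (n : ℕ)
    (g : Fin n → Lp.simpleFunc ℝ p μ) (i j : Fin n) :
    dist (g i : Lp ℝ p μ) (g j : Lp ℝ p μ) ^ p.toReal =
      ∑ c ∈ (joint fun i => Lp.simpleFunc.toSimpleFunc (g i)).range,
        sdW μ (joint fun i => Lp.simpleFunc.toSimpleFunc (g i)) c * |c i - c j| ^ p.toReal := by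
  classical
  have hp1 : (1 : ENNReal) ≤ p := Fact.out
  have hp0 : p ≠ 0 := (lt_of_lt_of_le zero_lt_one hp1).ne'
  have hq1 : 1 ≤ p.toReal := by
    have := ENNReal.toReal_mono hp hp1
    simpa using this
  have hq0 : 0 < p.toReal := by linarith
  set G : Fin n → SimpleFunc α ℝ := fun i => Lp.simpleFunc.toSimpleFunc (g i) with hG
  set J : SimpleFunc α (Fin n → ℝ) := joint G with hJ
  have hw0 : ∀ c, 0 ≤ sdW μ J c := sdW_nonneg μ J
  have hsum0 : 0 ≤ ∑ c ∈ J.range, sdW μ J c * |c i - c j| ^ p.toReal :=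
    Finset.sum_nonneg fun c _ => mul_nonneg (hw0 c) (Real.rpow_nonneg (abs_nonneg _) _)
  have key : dist (g i : Lp ℝ p μ) (g j : Lp ℝ p μ) =
      (∑ c ∈ J.range, sdW μ J c * |c i - c j| ^ p.toReal) ^ (1 / p.toReal) := by
    rw [Lp.dist_def]
    have hae : (⇑(g i : Lp ℝ p μ) - ⇑(g j : Lp ℝ p μ)) =ᵐ[μ] fun a => G i a - G j a := by
      filter_upwards [Lp.simpleFunc.toSimpleFunc_eq_toFun (g i),
        Lp.simpleFunc.toSimpleFunc_eq_toFun (g j)] with a ha hb
      simp only [Pi.sub_apply, G]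
      rw [ha, hb]
    rw [eLpNorm_congr_ae hae, eLpNorm_eq_lintegral_rpow_enorm_toReal hp0 hp]
    have h1 : (fun a => ‖G i a - G j a‖ₑ ^ p.toReal) =
        (J.map (fun c => ‖c i - c j‖ₑ ^ p.toReal) : α → ENNReal) := by
      ext a
      rfl
    rw [h1, SimpleFunc.lintegral_eq_lintegral, SimpleFunc.map_lintegral]
    have h2 : ∀ c ∈ J.range, ‖c i - c j‖ₑ ^ p.toReal * μ (J ⁻¹' {c}) =
        ENNReal.ofReal (sdW μ J c * |c i - c j| ^ p.toReal) := by
      intro c _
      by_cases hij : c i = c j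
      · simp [hij, hq0, hq0.ne']
      · have hfin : μ (J ⁻¹' {c}) < ⊤ := by
          have hmem : MemLp (⇑(G i - G j)) p μ :=
            (Lp.simpleFunc.memLp (g i)).sub (Lp.simpleFunc.memLp (g j))
          have hlt := SimpleFunc.measure_preimage_lt_top_of_memLp hp0 hp (G i - G j) hmem
            (c i - c j) (sub_ne_zero.mpr hij)
          refine lt_of_le_of_lt (measure_mono ?_) hlt
          intro a ha
          simp only [Set.mem_preimage, Set.mem_singleton_iff] at ha ⊢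
          rw [SimpleFunc.sub_apply, ← ha]
          rfl
        have hw : sdW μ J c = (μ (J ⁻¹' {c})).toReal := if_pos ⟨i, j, hij⟩
        rw [hw, ENNReal.ofReal_mul ENNReal.toReal_nonneg, ENNReal.ofReal_toReal hfin.ne, mul_comm]
        congr 1
        rw [← Real.norm_eq_abs, ← ofReal_norm,
          ENNReal.ofReal_rpow_of_nonneg (norm_nonneg _) hq0.le]
    rw [Finset.sum_congr rfl h2, ← ENNReal.ofReal_sum_of_nonneg
      (fun c _ => mul_nonneg (hw0 c) (Real.rpow_nonneg (abs_nonneg _) _)),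
      ← ENNReal.toReal_rpow, ENNReal.toReal_ofReal hsum0]
  rw [key, ← Real.rpow_mul hsum0, one_div, inv_mul_cancel₀ hq0.ne', Real.rpow_one]

/-- The weighted sum of the `p`-th powers of the atomwise maxima is at most `K ^ p`. -/
theorem sd_bound (μ : Measure α) (p : ENNReal) [Fact (1 ≤ p)] (hp : p ≠ ⊤) (n : ℕ)
    (g : Fin n → Lp.simpleFunc ℝ p μ) (h : α → ℝ)
    (hh : ∀ i, ∀ᵐ a ∂μ, |(g i : Lp ℝ p μ) a| ≤ h a) (K : ℝ) (hK0 : 0 ≤ K)
    (hK : eLpNorm h p μ ≤ ENNReal.ofReal K) :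
    ∑ c ∈ (joint fun i => Lp.simpleFunc.toSimpleFunc (g i)).range,
        sdW μ (joint fun i => Lp.simpleFunc.toSimpleFunc (g i)) c * (⨆ i, |c i|) ^ p.toReal
      ≤ K ^ p.toReal := by
  classical
  have hp1 : (1 : ENNReal) ≤ p := Fact.out
  have hp0 : p ≠ 0 := (lt_of_lt_of_le zero_lt_one hp1).ne'
  have hq1 : 1 ≤ p.toReal := by
    have := ENNReal.toReal_mono hp hp1
    simpa using this
  have hq0 : 0 < p.toReal := by linarith
  set G : Fin n → SimpleFunc α ℝ := fun i => Lp.simpleFunc.toSimpleFunc (g i) with hG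
  set J : SimpleFunc α (Fin n → ℝ) := joint G with hJ
  have hw0 : ∀ c, 0 ≤ sdW μ J c := sdW_nonneg μ J
  have hB0 : ∀ c : Fin n → ℝ, 0 ≤ ⨆ i, |c i| := fun c => Real.iSup_nonneg fun i => abs_nonneg _
  have hterm0 : ∀ c : Fin n → ℝ, 0 ≤ sdW μ J c * (⨆ i, |c i|) ^ p.toReal :=
    fun c => mul_nonneg (hw0 c) (Real.rpow_nonneg (hB0 c) _)
  -- the simple function of the atomwise maxima
  set val : (Fin n → ℝ) → ENNReal :=
    fun c => if sdW μ J c = 0 then 0 else ENNReal.ofReal ((⨆ i, |c i|) ^ p.toReal) with hval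
  have hle : ∀ᵐ a ∂μ, (J.map val) a ≤ ‖h a‖ₑ ^ p.toReal := by
    have hall : ∀ᵐ a ∂μ, ∀ i, |(g i : Lp ℝ p μ) a| ≤ h a ∧ G i a = (g i : Lp ℝ p μ) a := by
      rw [ae_all_iff]
      intro i
      filter_upwards [hh i, Lp.simpleFunc.toSimpleFunc_eq_toFun (g i)] with a ha hb
      exact ⟨ha, hb⟩
    filter_upwards [hall] with a ha
    rw [SimpleFunc.map_apply]
    have hBa : (⨆ i, |J a i|) ≤ |h a| := by
      refine Real.iSup_le (fun i => ?_) (abs_nonneg _)
      have h1 : J a i = G i a := rfl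
      rw [h1, (ha i).2]
      exact (ha i).1.trans (le_abs_self _)
    have hpow : ENNReal.ofReal ((⨆ i, |J a i|) ^ p.toReal) ≤ ‖h a‖ₑ ^ p.toReal := by
      rw [← Real.norm_eq_abs] at hBa
      rw [← ofReal_norm, ENNReal.ofReal_rpow_of_nonneg (norm_nonneg _) hq0.le]
      exact ENNReal.ofReal_le_ofReal (Real.rpow_le_rpow (hB0 _) hBa hq0.le)
    simp only [hval]
    split_ifs
    · exact bot_le
    · exact hpow
  have hint : ∫⁻ a, (J.map val) a ∂μ ≤ ENNReal.ofReal (K ^ p.toReal) := by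
    calc ∫⁻ a, (J.map val) a ∂μ ≤ ∫⁻ a, ‖h a‖ₑ ^ p.toReal ∂μ := lintegral_mono_ae hle
      _ = (eLpNorm h p μ) ^ p.toReal := by
        rw [eLpNorm_eq_lintegral_rpow_enorm_toReal hp0 hp, ← ENNReal.rpow_mul, one_div,
          inv_mul_cancel₀ hq0.ne', ENNReal.rpow_one]
      _ ≤ (ENNReal.ofReal K) ^ p.toReal := ENNReal.rpow_le_rpow hK hq0.le
      _ = ENNReal.ofReal (K ^ p.toReal) := ENNReal.ofReal_rpow_of_nonneg hK0 hq0.le
  rw [SimpleFunc.lintegral_eq_lintegral, SimpleFunc.map_lintegral] at hint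
  have h2 : ∀ c ∈ J.range, val c * μ (J ⁻¹' {c}) =
      ENNReal.ofReal (sdW μ J c * (⨆ i, |c i|) ^ p.toReal) := by
    intro c _
    by_cases hw : sdW μ J c = 0
    · simp [hval, hw]
    · have hex : ∃ i j, c i ≠ c j := by
        by_contra hne
        exact hw (if_neg hne)
      have hwc : sdW μ J c = (μ (J ⁻¹' {c})).toReal := if_pos hex
      have hfin : μ (J ⁻¹' {c}) ≠ ⊤ := by
        intro htop
        rw [hwc, htop] at hw
        exact hw rfl
      simp only [hval, if_neg hw]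
      rw [hwc, ENNReal.ofReal_mul ENNReal.toReal_nonneg, ENNReal.ofReal_toReal hfin, mul_comm]
  rw [Finset.sum_congr rfl h2, ← ENNReal.ofReal_sum_of_nonneg (fun c _ => hterm0 c)] at hint
  exact (ENNReal.ofReal_le_ofReal_iff (Real.rpow_nonneg hK0 _)).1 hint

theorem simple_dom (μ : Measure α) (p : ENNReal) [Fact (1 ≤ p)]
    (hp : p ≠ ⊤) (n : ℕ) (s : Fin n → Lp.simpleFunc ℝ p μ) (h : α → ℝ)
    (hh : ∀ i, ∀ᵐ a ∂μ, |(s i : Lp ℝ p μ) a| ≤ h a) (K : ℝ) (hK0 : 0 ≤ K)
    (hK : eLpNorm h p μ ≤ ENNReal.ofReal K) :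
    ∃ (m : ℕ) (x : Fin n → Fin m → ℝ) (M : Fin m → ℝ),
      (∀ i k, |x i k| ≤ M k) ∧ ∑ k, M k ^ p.toReal ≤ K ^ p.toReal ∧
      ∀ i j, ∑ k, |x i k - x j k| ^ p.toReal =
        dist (s i : Lp ℝ p μ) (s j : Lp ℝ p μ) ^ p.toReal := by
  classical
  have hp1 : (1 : ENNReal) ≤ p := Fact.out
  have hq1 : 1 ≤ p.toReal := by
    have := ENNReal.toReal_mono hp hp1
    simpa using this
  have hq0 : 0 < p.toReal := by linarith
  set J : SimpleFunc α (Fin n → ℝ) := joint fun i => Lp.simpleFunc.toSimpleFunc (s i) with hJ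
  have hw0 : ∀ c, 0 ≤ sdW μ J c := sdW_nonneg μ J
  have hB0 : ∀ c : Fin n → ℝ, 0 ≤ ⨆ i, |c i| := fun c => Real.iSup_nonneg fun i => abs_nonneg _
  have hBi : ∀ (c : Fin n → ℝ) (i : Fin n), |c i| ≤ ⨆ i, |c i| :=
    fun c i => le_ciSup (f := fun i => |c i|) (Set.finite_range _).bddAbove i
  let e : J.range ≃ Fin J.range.card := J.range.equivFin
  have hrpow : ∀ c : Fin n → ℝ, (sdW μ J c ^ (1 / p.toReal)) ^ p.toReal = sdW μ J c := by
    intro c
    rw [← Real.rpow_mul (hw0 c), one_div, inv_mul_cancel₀ hq0.ne', Real.rpow_one]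
  refine ⟨J.range.card, fun i l => sdW μ J (e.symm l).1 ^ (1 / p.toReal) * (e.symm l).1 i,
    fun l => sdW μ J (e.symm l).1 ^ (1 / p.toReal) * ⨆ i, |(e.symm l).1 i|, ?_, ?_, ?_⟩
  · intro i l
    rw [abs_mul, abs_of_nonneg (Real.rpow_nonneg (hw0 _) _)]
    exact mul_le_mul_of_nonneg_left (hBi _ i) (Real.rpow_nonneg (hw0 _) _)
  · have hb := sd_bound μ p hp n s h hh K hK0 hK
    rw [← hJ] at hb
    refine le_trans (le_of_eq ?_) hb
    rw [← Finset.sum_coe_sort J.range (fun c => sdW μ J c * (⨆ i, |c i|) ^ p.toReal),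
      ← Equiv.sum_comp e.symm]
    refine Finset.sum_congr rfl fun l _ => ?_
    rw [Real.mul_rpow (Real.rpow_nonneg (hw0 _) _) (hB0 _), hrpow]
  · intro i j
    rw [sd_key μ p hp n s i j, ← hJ,
      ← Finset.sum_coe_sort J.range (fun c => sdW μ J c * |c i - c j| ^ p.toReal),
      ← Equiv.sum_comp e.symm]
    refine Finset.sum_congr rfl fun l _ => ?_
    rw [← mul_sub, abs_mul, Real.mul_rpow (abs_nonneg _) (abs_nonneg _),
      abs_of_nonneg (Real.rpow_nonneg (hw0 _) _), hrpow]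

end Vale.Agent.Lib.P249.H68
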