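import Mathlib
import Vale.Agent.Lib.P249.helper68.SimpleDom

/-!
# P249: dimension reduction with additive error for incompressible families of `L_p(μ)`

`incompressible_of`: the passage from the finite case (taken as a hypothesis, in the exact form
of the finite lemma `incomp_fin`) to points of `L_p(μ)` that are dominated almost everywhere by
one function of norm at most `K`.  (Independent backup copy of the glue step, helper68.)
-/

open MeasureTheory

namespace Vale.Agent.Lib.P249.H68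

/-- One half of the mean value bound for real powers. -/
theorem il_rpow_sub_le_aux {a b R q : ℝ} (hq : 1 ≤ q) (hb : 0 ≤ b) (hba : b ≤ a) (haR : a ≤ R) :
    a ^ q - b ^ q ≤ q * R ^ (q - 1) * (a - b) := by
  have hq0 : 0 < q := by linarith
  rcases eq_or_lt_of_le (hb.trans hba) with ha0 | ha0
  · have hb0 : b = 0 := le_antisymm (ha0 ▸ hba) hb
    rw [hb0, ← ha0]
    simp
  · have hs : -1 ≤ b / a - 1 := by
      have := div_nonneg hb ha0.le
      linarith
    have hB := one_add_mul_self_le_rpow_one_add hs hq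
    have e1 : 1 + (b / a - 1) = b / a := by ring
    rw [e1, Real.div_rpow hb ha0.le] at hB
    have haq : 0 < a ^ q := Real.rpow_pos_of_pos ha0 q
    have h2 : a ^ q * (1 + q * (b / a - 1)) ≤ b ^ q := by
      have := mul_le_mul_of_nonneg_left hB haq.le
      rwa [mul_div_cancel₀ _ haq.ne'] at this
    have h3 : a ^ q = a ^ (q - 1) * a := by
      rw [← Real.rpow_add_one ha0.ne']
      ring_nf
    have h4 : a ^ q * (1 + q * (b / a - 1)) = a ^ q - q * a ^ (q - 1) * (a - b) := by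
      rw [h3]
      field_simp
      ring
    have h5 : a ^ (q - 1) ≤ R ^ (q - 1) := Real.rpow_le_rpow ha0.le haR (by linarith)
    have h6 : q * a ^ (q - 1) * (a - b) ≤ q * R ^ (q - 1) * (a - b) :=
      mul_le_mul_of_nonneg_right (mul_le_mul_of_nonneg_left h5 hq0.le) (by linarith)
    linarith

/-- The mean value bound for real powers. -/
theorem il_rpow_sub_le {a b R q : ℝ} (hq : 1 ≤ q) (ha : 0 ≤ a) (hb : 0 ≤ b) (haR : a ≤ R)
    (hbR : b ≤ R) : |a ^ q - b ^ q| ≤ q * R ^ (q - 1) * |a - b| := by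
  have hq0 : 0 < q := by linarith
  rcases le_total b a with hba | hab
  · have h1 := il_rpow_sub_le_aux hq hb hba haR
    have h2 : b ^ q ≤ a ^ q := Real.rpow_le_rpow hb hba hq0.le
    rw [abs_of_nonneg (by linarith), abs_of_nonneg (by linarith)]
    exact h1
  · have h1 := il_rpow_sub_le_aux hq ha hab hbR
    have h2 : a ^ q ≤ b ^ q := Real.rpow_le_rpow ha hab hq0.le
    rw [abs_of_nonpos (by linarith), abs_of_nonpos (by linarith)]
    linarith

/-- The numerical step: the dimension bound of the finite case, for slightly larger `K` and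
slightly smaller `ε`, is below `170 (2K)^(2q) log n / ε²`. -/
theorem il_dim_bound {K K' q ε t : ℝ} {n : ℕ} (hn : 2 ≤ n) (hq : 1 ≤ q) (hK : 0 < K)
    (hε : 0 < ε) (hεK : ε < (2 * K) ^ q) (ht0 : 0 ≤ t) (ht : t * (2 * q) ≤ 1 / 162)
    (hK' : K' = K * (1 + t)) :
    128 * (2 * K') ^ (2 * q) * Real.log n / (8 * ε / 9) ^ 2 + 1
      ≤ 170 * (2 * K) ^ (2 * q) * Real.log n / ε ^ 2 := by
  have hq0 : 0 < q := by linarith
  have hP : (2 * K) ^ (2 * q) = ((2 * K) ^ q) ^ 2 := by
    rw [show 2 * q = q * 2 by ring, Real.rpow_mul (by linarith), Real.rpow_two]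
  have hPpos : 0 < (2 * K) ^ (2 * q) := Real.rpow_pos_of_pos (by linarith) _
  have hEP : ε ^ 2 < (2 * K) ^ (2 * q) := by
    rw [hP]
    have h0 : 0 < (2 * K) ^ q := Real.rpow_pos_of_pos (by linarith) _
    nlinarith
  have hL : (0.69 : ℝ) ≤ Real.log n := by
    have h2 : Real.log 2 ≤ Real.log n :=
      Real.log_le_log (by norm_num) (by exact_mod_cast hn)
    have h3 := Real.log_two_gt_d9
    linarith
  have hE : 0 < ε ^ 2 := by positivity
  -- the factor coming from K'
  have hfac : (1 + t) ^ (2 * q) ≤ 82 / 81 := by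
    have h1 : (1 + t) ^ (2 * q) ≤ (Real.exp t) ^ (2 * q) :=
      Real.rpow_le_rpow (by linarith) (by linarith [Real.add_one_le_exp t]) (by linarith)
    have h2 : (Real.exp t) ^ (2 * q) = Real.exp (t * (2 * q)) := (Real.exp_mul t (2 * q)).symm
    have h3 : Real.exp (t * (2 * q)) ≤ Real.exp (1 / 162) := Real.exp_le_exp.2 ht
    have h4 : Real.exp (1 / 162) < 1 / (1 - 1 / 162) :=
      Real.exp_bound_div_one_sub_of_interval' (by norm_num) (by norm_num)
    have h5 : (1 : ℝ) / (1 - 1 / 162) ≤ 82 / 81 := by norm_num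
    linarith
  have hP' : (2 * K') ^ (2 * q) ≤ 82 / 81 * (2 * K) ^ (2 * q) := by
    rw [hK', show 2 * (K * (1 + t)) = 2 * K * (1 + t) by ring,
      Real.mul_rpow (by linarith) (by linarith)]
    have := mul_le_mul_of_nonneg_left hfac hPpos.le
    linarith
  have hA : 1 / 6 ≤ (2 * K) ^ (2 * q) * Real.log n / ε ^ 2 := by
    rw [le_div_iff₀ hE]
    nlinarith
  have e1 : 128 * (2 * K') ^ (2 * q) * Real.log n / (8 * ε / 9) ^ 2
      = 162 * ((2 * K') ^ (2 * q) * Real.log n / ε ^ 2) := by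
    field_simp
    ring
  have e2 : (2 * K') ^ (2 * q) * Real.log n / ε ^ 2
      ≤ 82 / 81 * ((2 * K) ^ (2 * q) * Real.log n / ε ^ 2) := by
    have h1 : (2 * K') ^ (2 * q) * Real.log n ≤ 82 / 81 * (2 * K) ^ (2 * q) * Real.log n :=
      mul_le_mul_of_nonneg_right hP' (by linarith)
    have h2 := div_le_div_of_nonneg_right h1 hE.le
    calc (2 * K') ^ (2 * q) * Real.log n / ε ^ 2
        ≤ 82 / 81 * (2 * K) ^ (2 * q) * Real.log n / ε ^ 2 := h2
      _ = 82 / 81 * ((2 * K) ^ (2 * q) * Real.log n / ε ^ 2) := by ring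
  have e3 : 170 * (2 * K) ^ (2 * q) * Real.log n / ε ^ 2
      = 170 * ((2 * K) ^ (2 * q) * Real.log n / ε ^ 2) := by ring
  rw [e1, e3]
  linarith

/-- Incompressible families of `L_p(μ)`: `n` points dominated almost everywhere by one function
`g` with `‖g‖ ≤ K` have images in `ℓ_p^d`, `d ≤ 170 (2K)^(2p) log n / ε²`, whose `p`-th powers of
the pairwise distances differ from the original ones by at most `ε`.  The finite case is a
hypothesis (the exact statement of `incomp_fin`). -/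
theorem incompressible_of
    (hfin : ∀ (p : ℝ) (_ : 1 ≤ p) (m n : ℕ) (_ : 2 ≤ n) (x : Fin n → Fin m → ℝ)
      (M : Fin m → ℝ) (_ : ∀ i k, |x i k| ≤ M k) (K : ℝ) (_ : 0 ≤ K)
      (_ : ∑ k, M k ^ p ≤ K ^ p) (ε : ℝ) (_ : 0 < ε) (_ : ε < (2 * K) ^ p),
      ∃ (d : ℕ) (y : Fin n → Fin d → ℝ),
        (d : ℝ) ≤ 128 * (2 * K) ^ (2 * p) * Real.log n / ε ^ 2 + 1 ∧
        ∀ i j, |∑ l, |y i l - y j l| ^ p - ∑ k, |x i k - x j k| ^ p| ≤ ε)
    {α : Type*} [MeasurableSpace α] (μ : Measure α) (p : ENNReal) [Fact (1 ≤ p)] (hp : p ≠ ⊤)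
    (n : ℕ) (f : Fin n → Lp ℝ p μ) (g : Lp ℝ p μ) (hg : ∀ i, ∀ᵐ a ∂μ, |f i a| ≤ g a)
    (K : ℝ) (hK : ‖g‖ ≤ K) (ε : ℝ) (hε : 0 < ε) :
    ∃ (d : ℕ) (y : Fin n → PiLp p (fun _ : Fin d => ℝ)),
      (d : ℝ) ≤ 170 * (2 * K) ^ (2 * p.toReal) * Real.log n / ε ^ 2 ∧
      ∀ i j, |dist (y i) (y j) ^ p.toReal - dist (f i) (f j) ^ p.toReal| ≤ ε := by
  classical
  have hp1 : (1 : ENNReal) ≤ p := Fact.out
  have hq1 : 1 ≤ p.toReal := by
    have := ENNReal.toReal_mono hp hp1
    simpa using this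
  have hq0 : 0 < p.toReal := by linarith
  have hK0 : 0 ≤ K := (norm_nonneg g).trans hK
  have hfn : ∀ i, ‖f i‖ ≤ K := by
    intro i
    refine le_trans (Lp.norm_le_norm_of_ae_le ?_) hK
    filter_upwards [hg i] with a ha
    rw [Real.norm_eq_abs, Real.norm_eq_abs]
    exact ha.trans (le_abs_self _)
  have hdist : ∀ i j, dist (f i) (f j) ≤ 2 * K := by
    intro i j
    rw [dist_eq_norm]
    have h1 := norm_sub_le (f i) (f j)
    linarith [hfn i, hfn j]
  have hRHS0 : 0 ≤ 170 * (2 * K) ^ (2 * p.toReal) * Real.log n / ε ^ 2 := by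
    have h1 : 0 ≤ (2 * K) ^ (2 * p.toReal) := Real.rpow_nonneg (by linarith) _
    have h2 : 0 ≤ Real.log n := Real.log_natCast_nonneg n
    positivity
  -- the case in which dimension zero works
  have htriv : (∀ i j, dist (f i) (f j) ^ p.toReal ≤ ε) →
      ∃ (d : ℕ) (y : Fin n → PiLp p (fun _ : Fin d => ℝ)),
        (d : ℝ) ≤ 170 * (2 * K) ^ (2 * p.toReal) * Real.log n / ε ^ 2 ∧
        ∀ i j, |dist (y i) (y j) ^ p.toReal - dist (f i) (f j) ^ p.toReal| ≤ ε := by
    intro h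
    refine ⟨0, fun _ => 0, by simpa using hRHS0, fun i j => ?_⟩
    rw [dist_self, Real.zero_rpow hq0.ne', zero_sub, abs_neg,
      abs_of_nonneg (Real.rpow_nonneg dist_nonneg _)]
    exact h i j
  by_cases hn : n < 2
  · apply htriv
    intro i j
    have hij : i = j := by
      apply Fin.ext
      have := i.2
      have := j.2
      omega
    rw [hij, dist_self, Real.zero_rpow hq0.ne']
    exact hε.le
  by_cases hεK : (2 * K) ^ p.toReal ≤ ε
  · apply htriv
    intro i j
    exact (Real.rpow_le_rpow dist_nonneg (hdist i j) hq0.le).trans hεK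
  have hn2 : 2 ≤ n := by omega
  have hεK' : ε < (2 * K) ^ p.toReal := lt_of_not_ge hεK
  have hKpos : 0 < K := by
    rcases hK0.eq_or_lt with h0 | h0
    · rw [← h0, mul_zero, Real.zero_rpow hq0.ne'] at hεK'
      linarith
    · exact h0
  have hnpos : (0 : ℝ) < n := by
    have : (2 : ℝ) ≤ n := by exact_mod_cast hn2
    linarith
  have h3K : 0 < (3 * K) ^ (p.toReal - 1) := Real.rpow_pos_of_pos (by linarith) _
  -- the accuracy of the approximation by simple functions
  obtain ⟨η, hη0, hη1, hη2⟩ : ∃ η : ℝ, 0 < η ∧ η ≤ K / (324 * p.toReal * n) ∧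
      η ≤ ε / (18 * p.toReal * (3 * K) ^ (p.toReal - 1)) :=
    ⟨min (K / (324 * p.toReal * n)) (ε / (18 * p.toReal * (3 * K) ^ (p.toReal - 1))),
      lt_min (by positivity) (by positivity), min_le_left _ _, min_le_right _ _⟩
  have hdense : ∀ F : Lp ℝ p μ, ∃ s : Lp.simpleFunc ℝ p μ, dist F (s : Lp ℝ p μ) < η := by
    intro F
    obtain ⟨s, hs⟩ := (Lp.simpleFunc.denseRange (E := ℝ) (μ := μ) hp).exists_dist_lt F hη0
    exact ⟨s, hs⟩
  choose sF hsF using hdense
  obtain ⟨s, hsd⟩ : ∃ s : Fin n → Lp.simpleFunc ℝ p μ,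
      ∀ i, dist (f i) (s i : Lp ℝ p μ) < η := ⟨fun i => sF (f i), fun i => hsF (f i)⟩
  -- the dominating function
  obtain ⟨H, hHdef⟩ : ∃ H : Lp ℝ p μ, H = g + ∑ j, |(s j : Lp ℝ p μ) - f j| := ⟨_, rfl⟩
  have hHnorm : ‖H‖ ≤ K + n * η := by
    rw [hHdef]
    have h1 : ‖∑ j, |(s j : Lp ℝ p μ) - f j|‖ ≤ ∑ _j : Fin n, η := by
      refine (norm_sum_le _ _).trans (Finset.sum_le_sum fun j _ => ?_)
      rw [norm_abs_eq_norm, ← dist_eq_norm, dist_comm]
      exact (hsd j).le
    have h2 : ∑ _j : Fin n, η = n * η := by simp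
    have h3 := norm_add_le g (∑ j, |(s j : Lp ℝ p μ) - f j|)
    linarith
  have hdom : ∀ i, ∀ᵐ a ∂μ, |(s i : Lp ℝ p μ) a| ≤ H a := by
    intro i
    have hle : |(s i : Lp ℝ p μ)| ≤ H := by
      have h1 : |f i| ≤ g := by
        rw [← Lp.coeFn_le]
        filter_upwards [Lp.coeFn_abs (f i), hg i] with a ha hb
        rw [ha]
        exact hb
      have h2 : (s i : Lp ℝ p μ) = f i + ((s i : Lp ℝ p μ) - f i) := by abel
      have h3 : |(s i : Lp ℝ p μ)| ≤ |f i| + |(s i : Lp ℝ p μ) - f i| := by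
        conv_lhs => rw [h2]
        exact abs_add_le _ _
      have h4 : |(s i : Lp ℝ p μ) - f i| ≤ ∑ j, |(s j : Lp ℝ p μ) - f j| :=
        Finset.single_le_sum (f := fun j => |(s j : Lp ℝ p μ) - f j|)
          (fun j _ => abs_nonneg _) (Finset.mem_univ i)
      rw [hHdef]
      exact h3.trans (add_le_add h1 h4)
    have hae := (Lp.coeFn_le _ _).2 hle
    filter_upwards [hae, Lp.coeFn_abs (s i : Lp ℝ p μ)] with a ha hb
    rw [← hb]
    exact ha
  have hK'0 : 0 ≤ K + n * η := by positivity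
  have hHe : eLpNorm (H : α → ℝ) p μ ≤ ENNReal.ofReal (K + n * η) := by
    rw [← ENNReal.ofReal_toReal (Lp.eLpNorm_ne_top H), ← Lp.norm_def]
    exact ENNReal.ofReal_le_ofReal hHnorm
  obtain ⟨m, x, M, hxM, hMK, hxd⟩ := simple_dom μ p hp n s (H : α → ℝ) hdom (K + n * η) hK'0 hHe
  -- the finite case
  have hε' : 0 < 8 * ε / 9 := by positivity
  have hKK' : K ≤ K + n * η := by
    have : 0 ≤ (n : ℝ) * η := by positivity
    linarith
  have hε'K : 8 * ε / 9 < (2 * (K + n * η)) ^ p.toReal := by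
    have h1 : (2 * K) ^ p.toReal ≤ (2 * (K + n * η)) ^ p.toReal :=
      Real.rpow_le_rpow (by linarith) (by linarith) hq0.le
    linarith
  obtain ⟨d, y, hd, hy⟩ :=
    hfin p.toReal hq1 m n hn2 x M hxM (K + n * η) hK'0 hMK (8 * ε / 9) hε' hε'K
  refine ⟨d, fun i => WithLp.toLp p (y i), ?_, ?_⟩
  · -- the dimension
    have hqn : 0 < 324 * p.toReal * n := by positivity
    have ht : (n * η / K) * (2 * p.toReal) ≤ 1 / 162 := by
      have h1 := (le_div_iff₀ hqn).1 hη1
      rw [div_mul_eq_mul_div, div_le_iff₀ hKpos]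
      nlinarith
    have hK'eq : K + n * η = K * (1 + n * η / K) := by
      field_simp
    have hb := il_dim_bound hn2 hq1 hKpos hε hεK' (by positivity) ht hK'eq
    linarith
  · intro i j
    have hY : dist (WithLp.toLp p (y i) : PiLp p (fun _ : Fin d => ℝ)) (WithLp.toLp p (y j))
        ^ p.toReal = ∑ l, |y i l - y j l| ^ p.toReal := by
      rw [PiLp.dist_eq_sum hq0,
        ← Real.rpow_mul (Finset.sum_nonneg fun l _ => Real.rpow_nonneg dist_nonneg _), one_div,
        inv_mul_cancel₀ hq0.ne', Real.rpow_one]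
      simp [Real.dist_eq]
    have h1 := hy i j
    rw [hxd i j] at h1
    have h2 : |dist (s i : Lp ℝ p μ) (s j : Lp ℝ p μ) ^ p.toReal
        - dist (f i) (f j) ^ p.toReal| ≤ ε / 9 := by
      have ha0 : 0 ≤ dist (s i : Lp ℝ p μ) (s j : Lp ℝ p μ) := dist_nonneg
      have hb0 : 0 ≤ dist (f i) (f j) := dist_nonneg
      have hab : |dist (s i : Lp ℝ p μ) (s j : Lp ℝ p μ) - dist (f i) (f j)| ≤ 2 * η := by
        have t1 := dist_triangle4 (s i : Lp ℝ p μ) (f i) (f j) (s j : Lp ℝ p μ)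
        have t2 := dist_triangle4 (f i) (s i : Lp ℝ p μ) (s j : Lp ℝ p μ) (f j)
        have e1 := hsd i
        have e2 := hsd j
        rw [dist_comm (s i : Lp ℝ p μ) (f i)] at t1
        rw [dist_comm (s j : Lp ℝ p μ) (f j)] at t2
        rw [abs_le]
        constructor <;> linarith
      have hη3 : 2 * η ≤ K := by
        have hqn : 0 < 324 * p.toReal * n := by positivity
        have h1 := (le_div_iff₀ hqn).1 hη1
        have h2 : (2 : ℝ) ≤ n := by exact_mod_cast hn2
        nlinarith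
      have haR : dist (s i : Lp ℝ p μ) (s j : Lp ℝ p μ) ≤ 3 * K := by
        have := (abs_le.1 hab).2
        linarith [hdist i j]
      have hbR : dist (f i) (f j) ≤ 3 * K := by linarith [hdist i j]
      have h3 := il_rpow_sub_le hq1 ha0 hb0 haR hbR
      have hc : 0 < 18 * p.toReal * (3 * K) ^ (p.toReal - 1) := by positivity
      have h4 := (le_div_iff₀ hc).1 hη2
      have h5 : p.toReal * (3 * K) ^ (p.toReal - 1) *
          |dist (s i : Lp ℝ p μ) (s j : Lp ℝ p μ) - dist (f i) (f j)|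
          ≤ p.toReal * (3 * K) ^ (p.toReal - 1) * (2 * η) :=
        mul_le_mul_of_nonneg_left hab (by positivity)
      nlinarith
    rw [hY]
    have h3 := abs_sub_le (∑ l, |y i l - y j l| ^ p.toReal)
      (dist (s i : Lp ℝ p μ) (s j : Lp ℝ p μ) ^ p.toReal) (dist (f i) (f j) ^ p.toReal)
    linarith

end Vale.Agent.Lib.P249.H68
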