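import Mathlib
import Vale.Agent.Lib.P249.helper68.IncompLp
import Vale.Agent.Lib.P249.helper72.IncompFin

/-!
# P249: dimension reduction with additive error for incompressible families of `L_p(μ)`

`incompressible`: for every measure space, every `1 ≤ p < ∞`, every `ε > 0` and any `n` points
`f_1, …, f_n` of the real space `L_p(μ)` that are dominated almost everywhere by one function `g`
of `L_p(μ)` with `‖g‖ ≤ K`, there are `d ≤ 170 (2K)^(2p) ln n / ε²` and points `y_1, …, y_n` of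
`ℓ_p^d` with `| ‖y_i - y_j‖^p - ‖f_i - f_j‖^p | ≤ ε` for all `i, j`.
(Assembly of the finite case `H72.incomp_fin` with the glue step `H68.incompressible_of`;
independent backup copy, helper68.)
-/

open MeasureTheory

namespace Vale.Agent.Lib.P249.H68

theorem incompressible {α : Type*} [MeasurableSpace α] (μ : Measure α) (p : ENNReal)
    [Fact (1 ≤ p)] (hp : p ≠ ⊤) (n : ℕ) (f : Fin n → Lp ℝ p μ) (g : Lp ℝ p μ)
    (hg : ∀ i, ∀ᵐ a ∂μ, |f i a| ≤ g a) (K : ℝ) (hK : ‖g‖ ≤ K) (ε : ℝ) (hε : 0 < ε) :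
    ∃ (d : ℕ) (y : Fin n → PiLp p (fun _ : Fin d => ℝ)),
      (d : ℝ) ≤ 170 * (2 * K) ^ (2 * p.toReal) * Real.log n / ε ^ 2 ∧
      ∀ i j, |dist (y i) (y j) ^ p.toReal - dist (f i) (f j) ^ p.toReal| ≤ ε :=
  incompressible_of Vale.Agent.Lib.P249.H72.incomp_fin μ p hp n f g hg K hK ε hε

end Vale.Agent.Lib.P249.H68
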