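import Mathlib
import Vale.Agent.Lib.P249.helper68.Incompressible

/-!
# P249: the incompressible-families theorem with a general dominating function

`incompressible_fun`: the dominating function may be any real function `h` (not necessarily
measurable) with `eLpNorm h p μ ≤ K`.
`incompressible_max`: the special case `h = max_i |f_i|`, i.e. the hypothesis
`‖ max_i |f_i| ‖_{L_p(μ)} ≤ K`.
-/

open MeasureTheory

namespace Vale.Agent.Lib.P249.H68

theorem incompressible_fun {α : Type*} [MeasurableSpace α] (μ : Measure α) (p : ENNReal)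
    [Fact (1 ≤ p)] (hp : p ≠ ⊤) (n : ℕ) (f : Fin n → Lp ℝ p μ) (h : α → ℝ)
    (hh : ∀ i, ∀ᵐ a ∂μ, |f i a| ≤ h a) (K : ℝ) (hK0 : 0 ≤ K)
    (hK : eLpNorm h p μ ≤ ENNReal.ofReal K) (ε : ℝ) (hε : 0 < ε) :
    ∃ (d : ℕ) (y : Fin n → PiLp p (fun _ : Fin d => ℝ)),
      (d : ℝ) ≤ 170 * (2 * K) ^ (2 * p.toReal) * Real.log n / ε ^ 2 ∧
      ∀ i j, |dist (y i) (y j) ^ p.toReal - dist (f i) (f j) ^ p.toReal| ≤ ε := by
  classical
  rcases Nat.eq_zero_or_pos n with hn | hn
  · subst hn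
    exact incompressible μ p hp 0 f 0 (fun i => i.elim0) K (by simpa using hK0) ε hε
  · have hne : (Finset.univ : Finset (Fin n)).Nonempty := ⟨⟨0, hn⟩, Finset.mem_univ _⟩
    obtain ⟨g, hgdef⟩ : ∃ g : Lp ℝ p μ, g = Finset.univ.sup' hne (fun i => |f i|) := ⟨_, rfl⟩
    have hle : ∀ i, |f i| ≤ g := by
      intro i
      rw [hgdef]
      exact Finset.le_sup' (fun i => |f i|) (Finset.mem_univ i)
    have hg : ∀ i, ∀ᵐ a ∂μ, |f i a| ≤ g a := by
      intro i
      have hae := (Lp.coeFn_le _ _).2 (hle i)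
      filter_upwards [hae, Lp.coeFn_abs (f i)] with a ha hb
      rw [← hb]
      exact ha
    have hgh : ∀ᵐ a ∂μ, g a ≤ h a := by
      rw [hgdef]
      refine Finset.sup'_induction hne (fun i => |f i|) (p := fun u : Lp ℝ p μ => ∀ᵐ a ∂μ, u a ≤ h a)
        ?_ ?_
      · intro u hu v hv
        filter_upwards [hu, hv, Lp.coeFn_sup u v] with a ha hb hc
        rw [hc]
        exact sup_le ha hb
      · intro i _
        filter_upwards [hh i, Lp.coeFn_abs (f i)] with a ha hb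
        rw [hb]
        exact ha
    have hg0 : ∀ᵐ a ∂μ, 0 ≤ g a := by
      filter_upwards [hg ⟨0, hn⟩] with a ha
      exact (abs_nonneg _).trans ha
    have hnorm : ‖g‖ ≤ K := by
      rw [Lp.norm_def]
      have h1 : eLpNorm (g : α → ℝ) p μ ≤ eLpNorm h p μ := by
        apply eLpNorm_mono_ae
        filter_upwards [hgh, hg0] with a ha hb
        rw [Real.norm_eq_abs, Real.norm_eq_abs, abs_of_nonneg hb]
        exact ha.trans (le_abs_self _)
      have h2 := ENNReal.toReal_mono ENNReal.ofReal_ne_top (h1.trans hK)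
      rwa [ENNReal.toReal_ofReal hK0] at h2
    exact incompressible μ p hp n f g hg K hnorm ε hε

theorem incompressible_max {α : Type*} [MeasurableSpace α] (μ : Measure α) (p : ENNReal)
    [Fact (1 ≤ p)] (hp : p ≠ ⊤) (n : ℕ) (f : Fin n → Lp ℝ p μ) (K : ℝ) (hK0 : 0 ≤ K)
    (hK : eLpNorm (fun a => ⨆ i, |f i a|) p μ ≤ ENNReal.ofReal K) (ε : ℝ) (hε : 0 < ε) :
    ∃ (d : ℕ) (y : Fin n → PiLp p (fun _ : Fin d => ℝ)),
      (d : ℝ) ≤ 170 * (2 * K) ^ (2 * p.toReal) * Real.log n / ε ^ 2 ∧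
      ∀ i j, |dist (y i) (y j) ^ p.toReal - dist (f i) (f j) ^ p.toReal| ≤ ε :=
  incompressible_fun μ p hp n f (fun a => ⨆ i, |f i a|)
    (fun i => Filter.Eventually.of_forall fun a =>
      le_ciSup (f := fun i => |f i a|) (Set.finite_range _).bddAbove i) K hK0 hK ε hε

end Vale.Agent.Lib.P249.H68
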