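import Mathlib

/-!
# P249: from a lower bound for one point set to a lower bound for every `n`

* `pad_bound`: if `N` points of `ℓ_p^m` force `B ≤ D ^ p * d` for every map into `ℓ_p^d` of
  distortion `D`, then for every `n ≥ N` there are `n` distinct points of `ℓ_p^(m+1)` forcing the
  same bound (append a zero coordinate and add `n - N` new points on the new axis).
* `exists_grid_param`: for `n ≥ 10 ^ 7` there is `k ≥ 1` with `(6 k + 1) ^ k ≤ n` and
  `log n / (4 log log n) ≤ k`.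
-/

namespace Vale.Agent.Lib.P249.H68

open scoped ENNReal

theorem pad_one_le_toReal (p : ℝ≥0∞) [Fact (1 ≤ p)] (hp : p ≠ ⊤) : 1 ≤ p.toReal := by
  have h := ENNReal.toReal_mono hp (Fact.out : (1 : ℝ≥0∞) ≤ p)
  simpa using h

theorem pad_dist_eq (p : ℝ≥0∞) [Fact (1 ≤ p)] (hp : p ≠ ⊤) {m : ℕ}
    (a b : PiLp p (fun _ : Fin m => ℝ)) :
    dist a b = (∑ c, |a c - b c| ^ p.toReal) ^ (1 / p.toReal) := by
  have hq : 0 < p.toReal := lt_of_lt_of_le one_pos (pad_one_le_toReal p hp)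
  rw [PiLp.dist_eq_sum hq]
  simp only [Real.dist_eq]

/-- The padded point set. -/
noncomputable def padPt (p : ℝ≥0∞) {N m : ℕ} (x : Fin N → PiLp p (fun _ : Fin m => ℝ))
    (n : ℕ) (i : Fin n) : PiLp p (fun _ : Fin (m + 1) => ℝ) :=
  WithLp.toLp p (Fin.snoc (α := fun _ => ℝ)
    (if h : i.val < N then (fun c => x ⟨i.val, h⟩ c) else fun _ => 0)
    (if i.val < N then 0 else ((i.val - N + 1 : ℕ) : ℝ)))

theorem padPt_castSucc (p : ℝ≥0∞) {N m : ℕ} (x : Fin N → PiLp p (fun _ : Fin m => ℝ))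
    (n : ℕ) (i : Fin n) (c : Fin m) :
    padPt p x n i (Fin.castSucc c) =
      (if h : i.val < N then x ⟨i.val, h⟩ c else 0) := by
  unfold padPt
  by_cases h : i.val < N <;> simp [h]

theorem padPt_last (p : ℝ≥0∞) {N m : ℕ} (x : Fin N → PiLp p (fun _ : Fin m => ℝ))
    (n : ℕ) (i : Fin n) :
    padPt p x n i (Fin.last m) = (if i.val < N then 0 else ((i.val - N + 1 : ℕ) : ℝ)) := by
  unfold padPt
  simp

theorem padPt_dist (p : ℝ≥0∞) [Fact (1 ≤ p)] (hp : p ≠ ⊤) {N m : ℕ}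
    (x : Fin N → PiLp p (fun _ : Fin m => ℝ)) (n : ℕ) (i j : Fin n)
    (hi : i.val < N) (hj : j.val < N) :
    dist (padPt p x n i) (padPt p x n j) = dist (x ⟨i.val, hi⟩) (x ⟨j.val, hj⟩) := by
  have hq : 0 < p.toReal := lt_of_lt_of_le one_pos (pad_one_le_toReal p hp)
  rw [pad_dist_eq p hp, pad_dist_eq p hp, Fin.sum_univ_castSucc]
  simp only [padPt_castSucc, padPt_last, hi, hj, dif_pos, if_pos, sub_self, abs_zero]
  rw [Real.zero_rpow hq.ne', add_zero]

theorem padPt_injective (p : ℝ≥0∞) {N m : ℕ} (x : Fin N → PiLp p (fun _ : Fin m => ℝ))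
    (hx : Function.Injective x) (n : ℕ) : Function.Injective (padPt p x n) := by
  intro i j hij
  have hlast : padPt p x n i (Fin.last m) = padPt p x n j (Fin.last m) := by rw [hij]
  rw [padPt_last, padPt_last] at hlast
  by_cases hi : i.val < N
  · by_cases hj : j.val < N
    · have hxx : x ⟨i.val, hi⟩ = x ⟨j.val, hj⟩ := by
        have hfun : ∀ c, x ⟨i.val, hi⟩ c = x ⟨j.val, hj⟩ c := by
          intro c
          have hc : padPt p x n i (Fin.castSucc c) = padPt p x n j (Fin.castSucc c) := by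
            rw [hij]
          rw [padPt_castSucc, padPt_castSucc] at hc
          simpa [hi, hj] using hc
        exact PiLp.ext hfun
      have := hx hxx
      exact Fin.ext (by simpa using congrArg Fin.val this)
    · exfalso
      simp only [hi, hj, if_true, if_false] at hlast
      have : (0 : ℝ) < ((j.val - N + 1 : ℕ) : ℝ) := by positivity
      linarith
  · by_cases hj : j.val < N
    · exfalso
      simp only [hi, hj, if_true, if_false] at hlast
      have : (0 : ℝ) < ((i.val - N + 1 : ℕ) : ℝ) := by positivity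
      linarith
    · simp only [hi, hj, if_false] at hlast
      have h2 : i.val - N + 1 = j.val - N + 1 := by exact_mod_cast hlast
      exact Fin.ext (by omega)

/-- Padding: a lower bound forced by `N` points is forced by suitable `n ≥ N` distinct points. -/
theorem pad_bound (p : ℝ≥0∞) [Fact (1 ≤ p)] (hp : p ≠ ⊤) {N m : ℕ}
    (x : Fin N → PiLp p (fun _ : Fin m => ℝ)) (hx : Function.Injective x) (B : ℝ)
    (hB : ∀ (d : ℕ) (y : Fin N → PiLp p (fun _ : Fin d => ℝ)) (s D : ℝ), 0 < s →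
      (∀ i j, s * dist (x i) (x j) ≤ dist (y i) (y j) ∧
        dist (y i) (y j) ≤ D * s * dist (x i) (x j)) →
      B ≤ D ^ p.toReal * d)
    (n : ℕ) (hn : N ≤ n) :
    ∃ (m' : ℕ) (x' : Fin n → PiLp p (fun _ : Fin m' => ℝ)), Function.Injective x' ∧
      ∀ (d : ℕ) (y : Fin n → PiLp p (fun _ : Fin d => ℝ)) (s D : ℝ), 0 < s →
        (∀ i j, s * dist (x' i) (x' j) ≤ dist (y i) (y j) ∧
          dist (y i) (y j) ≤ D * s * dist (x' i) (x' j)) →
        B ≤ D ^ p.toReal * d := by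
  refine ⟨m + 1, padPt p x n, padPt_injective p x hx n, ?_⟩
  intro d y s D hs hy
  refine hB d (fun i => y (Fin.castLE hn i)) s D hs ?_
  intro i j
  have hd := padPt_dist p hp x n (Fin.castLE hn i) (Fin.castLE hn j)
    (by simp) (by simp)
  have hd' : dist (padPt p x n (Fin.castLE hn i)) (padPt p x n (Fin.castLE hn j)) =
      dist (x i) (x j) := by
    rw [hd]; rfl
  have := hy (Fin.castLE hn i) (Fin.castLE hn j)
  rw [hd'] at this
  exact this


/-- `log L ≤ L / 4` for `L ≥ 16`, and `1 < log L`. -/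
theorem log_le_quarter (L : ℝ) (hL : 16 ≤ L) : 1 < Real.log L ∧ Real.log L ≤ L / 4 := by
  have h2lo := Real.log_two_gt_d9
  have h2hi := Real.log_two_lt_d9
  have h16 : Real.log 16 = 4 * Real.log 2 := by
    rw [show (16 : ℝ) = 2 ^ 4 by norm_num, Real.log_pow]; norm_num
  have hLpos : (0 : ℝ) < L := by linarith
  constructor
  · have : Real.log 16 ≤ Real.log L := Real.log_le_log (by norm_num) hL
    linarith
  · have hsplit : Real.log L = Real.log 16 + Real.log (L / 16) := by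
      rw [← Real.log_mul (by norm_num) (by positivity)]
      congr 1; field_simp
    have h1 : Real.log (L / 16) ≤ L / 16 - 1 := Real.log_le_sub_one_of_pos (by positivity)
    linarith

/-- `16 ≤ log n` for `n ≥ 10 ^ 7`. -/
theorem sixteen_le_log (n : ℕ) (hn : 10 ^ 7 ≤ n) : 16 ≤ Real.log (n : ℝ) := by
  have hnR : (10 : ℝ) ^ 7 ≤ n := by exact_mod_cast hn
  rw [Real.le_log_iff_exp_le (by linarith [show (0 : ℝ) < 10 ^ 7 by norm_num])]
  have he : Real.exp 16 = Real.exp 1 ^ 16 := by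
    rw [← Real.exp_nat_mul]; norm_num
  have h1 : Real.exp 1 ^ 16 ≤ (2.7182818286 : ℝ) ^ 16 :=
    pow_le_pow_left₀ (Real.exp_pos 1).le Real.exp_one_lt_d9.le 16
  have h2 : (2.7182818286 : ℝ) ^ 16 ≤ 10 ^ 7 := by norm_num
  rw [he]; linarith

/-- For `n ≥ 10 ^ 7` there is `k ≥ 1` with `(6 k + 1) ^ k ≤ n` and
`log n / (4 log log n) ≤ k`. -/
theorem exists_grid_param (n : ℕ) (hn : 10 ^ 7 ≤ n) :
    ∃ k : ℕ, 1 ≤ k ∧ (6 * k + 1) ^ k ≤ n ∧
      Real.log (n : ℝ) / (4 * Real.log (Real.log (n : ℝ))) ≤ k := by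
  set L : ℝ := Real.log (n : ℝ) with hLdef
  have hL16 : 16 ≤ L := sixteen_le_log n hn
  obtain ⟨hl1, hl4⟩ := log_le_quarter L hL16
  set l : ℝ := Real.log L with hldef
  have hLpos : (0 : ℝ) < L := by linarith
  have hlpos : (0 : ℝ) < l := by linarith
  have hnpos : (0 : ℝ) < (n : ℝ) := by
    have : (10 : ℝ) ^ 7 ≤ n := by exact_mod_cast hn
    linarith [show (0 : ℝ) < 10 ^ 7 by norm_num]
  set T : ℝ := L / (2 * l) with hT
  have hT2 : 2 ≤ T := by
    rw [hT, le_div_iff₀ (by positivity)]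
    linarith
  have hTl : T * (2 * l) = L := by rw [hT]; field_simp
  set k : ℕ := ⌊T⌋₊ with hk
  have hkT : (k : ℝ) ≤ T := Nat.floor_le (by linarith)
  have hkT' : T - 1 < (k : ℝ) := by
    have := Nat.lt_floor_add_one T
    linarith
  have hk1 : 1 ≤ k := by
    have : (1 : ℝ) ≤ k := by linarith
    exact_mod_cast this
  refine ⟨k, hk1, ?_, ?_⟩
  · -- `(6 k + 1) ^ k ≤ n`
    have hbase : (6 * (k : ℝ) + 1) ≤ L ^ 2 := by
      have h1 : 6 * (k : ℝ) ≤ 3 * L := by
        have : T * 2 ≤ L := by nlinarith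
        nlinarith
      nlinarith
    have hbpos : (0 : ℝ) < 6 * (k : ℝ) + 1 := by positivity
    have hlog : Real.log (6 * (k : ℝ) + 1) ≤ 2 * l := by
      calc Real.log (6 * (k : ℝ) + 1) ≤ Real.log (L ^ 2) := Real.log_le_log hbpos hbase
        _ = 2 * l := by rw [Real.log_pow, hldef]; norm_num
    have hlog0 : 0 ≤ Real.log (6 * (k : ℝ) + 1) := Real.log_nonneg (by linarith)
    have hkl : (k : ℝ) * Real.log (6 * (k : ℝ) + 1) ≤ L := by
      calc (k : ℝ) * Real.log (6 * (k : ℝ) + 1) ≤ T * (2 * l) :=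
            mul_le_mul hkT hlog hlog0 (by linarith)
        _ = L := hTl
    have hreal : (6 * (k : ℝ) + 1) ^ k ≤ (n : ℝ) := by
      have h1 : (6 * (k : ℝ) + 1) ^ k = Real.exp ((k : ℝ) * Real.log (6 * (k : ℝ) + 1)) := by
        rw [Real.exp_nat_mul, Real.exp_log hbpos]
      rw [h1]
      calc Real.exp ((k : ℝ) * Real.log (6 * (k : ℝ) + 1)) ≤ Real.exp L := Real.exp_le_exp.mpr hkl
        _ = n := Real.exp_log hnpos
    exact_mod_cast hreal
  · -- `L / (4 l) ≤ k`
    have h4 : L / (4 * l) = T / 2 := by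
      rw [hT]; field_simp; ring
    rw [h4]
    linarith

/-- The all-`n` form of a grid lower bound: from the statement for the `(6k+1)^k` grid points
to a statement for `n` distinct points, for every `n ≥ 10 ^ 7`, with the bound expressed through
`log n / log log n`. -/
theorem all_n_of_grid (p : ℝ≥0∞) [Fact (1 ≤ p)] (hp : p ≠ ⊤)
    (hgrid : ∀ k : ℕ, 1 ≤ k →
      ∃ (m : ℕ) (x : Fin ((6 * k + 1) ^ k) → PiLp p (fun _ : Fin m => ℝ)),
        Function.Injective x ∧
        ∀ (d : ℕ) (y : Fin ((6 * k + 1) ^ k) → PiLp p (fun _ : Fin d => ℝ)) (s D : ℝ), 0 < s →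
          (∀ i j, s * dist (x i) (x j) ≤ dist (y i) (y j) ∧
            dist (y i) (y j) ≤ D * s * dist (x i) (x j)) →
          (1 / 11 : ℝ) * (2 * k / (3 * p.toReal ^ 2)) ^ (p.toReal / 2) ≤ D ^ p.toReal * d)
    (n : ℕ) (hn : 10 ^ 7 ≤ n) :
    ∃ (m : ℕ) (x : Fin n → PiLp p (fun _ : Fin m => ℝ)), Function.Injective x ∧
      ∀ (d : ℕ) (y : Fin n → PiLp p (fun _ : Fin d => ℝ)) (s D : ℝ), 0 < s →
        (∀ i j, s * dist (x i) (x j) ≤ dist (y i) (y j) ∧
          dist (y i) (y j) ≤ D * s * dist (x i) (x j)) →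
        (1 / 11 : ℝ) *
            (Real.log (n : ℝ) / (6 * p.toReal ^ 2 * Real.log (Real.log (n : ℝ)))) ^
              (p.toReal / 2) ≤ D ^ p.toReal * d := by
  obtain ⟨k, hk1, hkn, hkL⟩ := exists_grid_param n hn
  obtain ⟨m, x, hx, hB⟩ := hgrid k hk1
  obtain ⟨m', x', hx', hB'⟩ := pad_bound p hp x hx _ hB n hkn
  refine ⟨m', x', hx', ?_⟩
  intro d y s D hs hy
  refine le_trans ?_ (hB' d y s D hs hy)
  have hq1 : 1 ≤ p.toReal := pad_one_le_toReal p hp
  have hL16 : 16 ≤ Real.log (n : ℝ) := sixteen_le_log n hn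
  obtain ⟨hl1, -⟩ := log_le_quarter _ hL16
  have hq2 : 0 < p.toReal ^ 2 := by positivity
  have hbase : Real.log (n : ℝ) / (6 * p.toReal ^ 2 * Real.log (Real.log (n : ℝ))) ≤
      2 * k / (3 * p.toReal ^ 2) := by
    have hl0 : 0 < Real.log (Real.log (n : ℝ)) := by linarith
    have h1 : Real.log (n : ℝ) / (6 * p.toReal ^ 2 * Real.log (Real.log (n : ℝ))) =
        2 / (3 * p.toReal ^ 2) *
          (Real.log (n : ℝ) / (4 * Real.log (Real.log (n : ℝ)))) := by
      field_simp; ring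
    rw [h1, show 2 * (k : ℝ) / (3 * p.toReal ^ 2) = 2 / (3 * p.toReal ^ 2) * k by ring]
    exact mul_le_mul_of_nonneg_left hkL (by positivity)
  have hnonneg : 0 ≤ Real.log (n : ℝ) / (6 * p.toReal ^ 2 * Real.log (Real.log (n : ℝ))) := by
    have hl0 : 0 < Real.log (Real.log (n : ℝ)) := by linarith
    have : 0 < Real.log (n : ℝ) := by linarith
    positivity
  have := Real.rpow_le_rpow hnonneg hbase (by positivity : (0 : ℝ) ≤ p.toReal / 2)
  linarith

end Vale.Agent.Lib.P249.H68
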